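import Vale.Agent.P036.Final

namespace Vale.Agent.Results.P036.PowerGain

/-- area of the triangle `pqr`, that is `|det (q - p, r - p)| / 2` -/
noncomputable def area (p q r : ℝ × ℝ) : ℝ :=
  1 / 2 * |(q.1 - p.1) * (r.2 - p.2) - (q.2 - p.2) * (r.1 - p.1)|

/-- `Δ(P)`: the least area of a triangle on three distinct points of `P` -/
noncomputable def minArea (P : Finset (ℝ × ℝ)) : ℝ :=
  sInf {a : ℝ | ∃ p ∈ P, ∃ q ∈ P, ∃ r ∈ P, p ≠ q ∧ p ≠ r ∧ q ≠ r ∧ a = area p q r}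

/-- `Δ(n)`: the largest value of `Δ(P)` over `n`-point subsets `P` of the unit square -/
noncomputable def heil (n : ℕ) : ℝ :=
  sSup {a : ℝ | ∃ P : Finset (ℝ × ℝ), P.card = n ∧
    (∀ p ∈ P, 0 ≤ p.1 ∧ p.1 ≤ 1 ∧ 0 ≤ p.2 ∧ p.2 ≤ 1) ∧ a = minArea P}

lemma lower : ∃ η : ℝ, 0 < η ∧ ∃ c : ℝ, 0 < c ∧ ∀ n : ℕ, 3 ≤ n →
    c * (n : ℝ) ^ (-2 + η) ≤ heil n := by
  obtain ⟨η, hη, c, hc, h⟩ := Vale.Agent.P036.all_n
  refine ⟨η, hη, c, hc, fun n hn => ?_⟩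
  obtain ⟨S, h1, h2, h3⟩ := h n (by omega)
  have hb : BddAbove {a : ℝ | ∃ P : Finset (ℝ × ℝ), P.card = n ∧
      (∀ p ∈ P, 0 ≤ p.1 ∧ p.1 ≤ 1 ∧ 0 ≤ p.2 ∧ p.2 ≤ 1) ∧ a = minArea P} := by
    refine ⟨1, ?_⟩
    rintro a ⟨P, hP, hs, rfl⟩
    obtain ⟨p, hp, q, hq, r, hr, n1, n2, n3⟩ := Finset.two_lt_card.mp (by omega : 2 < P.card)
    refine le_trans (csInf_le ⟨0, ?_⟩ ⟨p, hp, q, hq, r, hr, n1, n2, n3, rfl⟩) ?_
    · rintro a ⟨p, _, q, _, r, _, _, _, _, rfl⟩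
      unfold area; positivity
    · obtain ⟨a1, a2, a3, a4⟩ := hs p hp
      obtain ⟨b1, b2, b3, b4⟩ := hs q hq
      obtain ⟨c1, c2, c3, c4⟩ := hs r hr
      have t : ∀ x y : ℝ, |x| ≤ 1 → |y| ≤ 1 → |x * y| ≤ 1 := fun x y hx hy => by
        rw [abs_mul]; exact mul_le_one₀ hx (abs_nonneg _) hy
      have t1 := t (q.1 - p.1) (r.2 - p.2) (abs_le.mpr ⟨by linarith, by linarith⟩)
        (abs_le.mpr ⟨by linarith, by linarith⟩)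
      have t2 := t (q.2 - p.2) (r.1 - p.1) (abs_le.mpr ⟨by linarith, by linarith⟩)
        (abs_le.mpr ⟨by linarith, by linarith⟩)
      have := abs_sub ((q.1 - p.1) * (r.2 - p.2)) ((q.2 - p.2) * (r.1 - p.1))
      unfold area; linarith
  refine le_trans ?_ (le_csSup hb ⟨S, h1, h2, rfl⟩)
  obtain ⟨p, hp, q, hq, r, hr, n1, n2, n3⟩ := Finset.two_lt_card.mp (by omega : 2 < S.card)
  refine le_csInf ⟨_, p, hp, q, hq, r, hr, n1, n2, n3, rfl⟩ ?_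
  rintro a ⟨p, hp, q, hq, r, hr, n1, n2, n3, rfl⟩
  exact h3 p hp q hq r hr n1 n2 n3

/-- Heilbronn's triangle problem: a power gain over `n ^ (-2)`, so the almost-`n ^ (-2)` upper
bound fails. -/
theorem result :
    (∃ η : ℝ, 0 < η ∧ ∃ c : ℝ, 0 < c ∧ ∀ n : ℕ, 3 ≤ n → c * (n : ℝ) ^ (-2 + η) ≤ heil n) ∧
    ¬ (∀ ε : ℝ, 0 < ε → ∃ C : ℝ, ∃ n₀ : ℕ, ∀ n : ℕ, n₀ ≤ n → heil n ≤ C * (n : ℝ) ^ (-2 + ε)) := by
  refine ⟨lower, fun h => ?_⟩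
  obtain ⟨η, hη, c, hc, h1⟩ := lower
  obtain ⟨C, n₀, h2⟩ := h (η / 2) (by linarith)
  have h3 : Filter.Tendsto (fun n : ℕ => (n : ℝ) ^ (η / 2)) Filter.atTop Filter.atTop :=
    (tendsto_rpow_atTop (by linarith)).comp tendsto_natCast_atTop_atTop
  obtain ⟨n, hn1, hn2⟩ := ((h3.eventually_gt_atTop (C / c)).and
    (Filter.eventually_ge_atTop (max n₀ 3))).exists
  have hn3 : 3 ≤ n := (le_max_right _ _).trans hn2
  have hn0 : (0 : ℝ) < n := by exact_mod_cast (by omega : 0 < n)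
  have h4 := (h1 n hn3).trans (h2 n ((le_max_left _ _).trans hn2))
  rw [show -2 + η = η / 2 + (-2 + η / 2) by ring, Real.rpow_add hn0, ← mul_assoc] at h4
  have h5 := le_of_mul_le_mul_right h4 (Real.rpow_pos_of_pos hn0 _)
  rw [div_lt_iff₀ hc] at hn1
  linarith

end Vale.Agent.Results.P036.PowerGain
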